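import Vale.Agent.P207.N5.H391.Theta

/-!
# P207, rates for `t ≥ T` (theorem H), row H9: an invariant tensor which is Lipschitz along stable
leaves is parallel along the stable leaves
-/

set_option maxSynthPendingDepth 3

open Set Filter Topology Metric
open scoped ContDiff

noncomputable section

namespace Vale.Agent.P207.N4.V.H267

open Vale.Agent.P207.N3
open Vale.Agent.P207.N4.H883 (AffS St8)
open Vale.Agent.P207.N4.H391
open Vale.Agent.P207.N4.V.H391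
open Vale.Agent.P207.N4.H391.Q (V4 MM act act_apply act_comp par_at act_contDiff fam)
open Vale.Agent.P207.N4.H387 (DenseF dense_denseF)

variable [Dim]

variable {Γ X B : Type} [Group Γ] [MetricSpace X] [ProperSpace X] [MulAction Γ X]
  [IsIsometricSMul Γ X] [TopologicalSpace B] [CompactSpace B] [T2Space B] [MulAction Γ B]
  [ContinuousConstSMul Γ B] {L : Leaf Γ X B}

variable (F : Aff L) {D : B → B → ℝ}

variable {a b T₀ : ℝ}

theorem rate_lin_T (hR : ∀ t, T₀ ≤ t → ∀ x q,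
      Real.exp (a * t) * ‖q‖ ≤ ‖F.P t x q‖ ∧ ‖F.P t x q‖ ≤ Real.exp (b * t) * ‖q‖)
    {t : ℝ} (ht : T₀ ≤ t) (o : O2) (x : X) (q : E2) :
    Real.exp (a * t) * ‖q‖ ≤ ‖F.lin x (L.rot o (L.φ t x)) q‖ ∧
      ‖F.lin x (L.rot o (L.φ t x)) q‖ ≤ Real.exp (b * t) * ‖q‖ := by
  rw [lin_φ, LinearIsometryEquiv.norm_map]
  exact hR t ht x q

theorem rate_lin'_T (hR : ∀ t, T₀ ≤ t → ∀ x q,
      Real.exp (a * t) * ‖q‖ ≤ ‖F.P t x q‖ ∧ ‖F.P t x q‖ ≤ Real.exp (b * t) * ‖q‖)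
    {t : ℝ} (ht : T₀ ≤ t) (o : O2) (x : X) (q : E2) :
    Real.exp (-(b * t)) * ‖q‖ ≤ ‖F.lin (L.flip x) (L.flip (L.rot o (L.φ t x))) q‖ ∧
      ‖F.lin (L.flip x) (L.flip (L.rot o (L.φ t x))) q‖ ≤ Real.exp (-a * t) * ‖q‖ := by
  rw [lin_flip_φ, LinearIsometryEquiv.norm_map, P_neg_symm]
  set y := L.φ (-t) (L.flip x)
  have h := hR t ht y ((F.P t y).symm q)
  rw [ContinuousLinearEquiv.apply_symm_apply] at h
  constructor
  · rw [Real.exp_neg, inv_mul_le_iff₀ (Real.exp_pos _)]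
    exact h.2
  · rw [show -a * t = -(a * t) by ring, Real.exp_neg, inv_mul_eq_div, le_div_iff₀ (Real.exp_pos _),
      mul_comm]
    exact h.1

/-- at a frame with dense forward orbit -/
theorem trn_eq_at_T (hS : SmB L D) {θ : X → V4 E2} (hθ : Continuous θ)
    (hg : ∀ (g : Γ) x, θ (g • x) = θ x) (hfl : Equi F θ)
    (ha : 0 < a) (hab : b < 2 * a) (hT : 0 ≤ T₀) (hR : ∀ t, T₀ ≤ t → ∀ x q,
      Real.exp (a * t) * ‖q‖ ≤ ‖F.P t x q‖ ∧ ‖F.P t x q‖ ≤ Real.exp (b * t) * ‖q‖)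
    {ρ C : ℝ} (hC : 0 ≤ C) (hlip : ∀ x z, ‖z‖ < ρ → ‖trn F hS θ x z - θ x‖ ≤ C * ‖z‖)
    {x0 : X} (hx0 : DenseF L x0) {z : E2} (hz : ‖z‖ < ρ) : trn F hS θ x0 z = θ x0 := by
  have hem : ∀ i : {i : ℝ × O2 // T₀ ≤ i.1}, L.em x0 = L.em (L.rot i.1.2 (L.φ i.1.1 x0)) :=
    fun i => by rw [L.em_rot, L.em_φ]
  have hep : ∀ i : {i : ℝ × O2 // T₀ ≤ i.1}, L.ep x0 = L.ep (L.rot i.1.2 (L.φ i.1.1 x0)) :=
    fun i => by rw [Ten.ep_rot, Ten.ep_φ]
  refine par_at θ x0 (fun i : {i : ℝ × O2 // T₀ ≤ i.1} => i.1.1) (fun i => L.rot i.1.2 (L.φ i.1.1 x0))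
    (fun i => F.lin x0 (L.rot i.1.2 (L.φ i.1.1 x0)))
    (fun i => F.lin (L.flip x0) (L.flip (L.rot i.1.2 (L.φ i.1.1 x0))))
    (fun i _ => hfl _ _ (hem i) (hep i)) ?_ (C := C * ‖z‖) ha hab
    (fun i ht => norm_P_le (Real.exp_pos _).le (rate_lin_T F hR i.2 i.1.2 x0)) (fun i ht => ?_)
    (fun i ht => norm_P_le (Real.exp_pos _).le (rate_lin'_T F hR i.2 i.1.2 x0)) (fun i ht => ?_)
    (fun i => ((kap F hS (L.rot i.1.2 (L.φ i.1.1 x0))
      (F.lin (L.flip x0) (L.flip (L.rot i.1.2 (L.φ i.1.1 x0))) z) : E2 →L[ℝ] E2),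
      (kap' F (L.rot i.1.2 (L.φ i.1.1 x0))
        (F.lin (L.flip x0) (L.flip (L.rot i.1.2 (L.φ i.1.1 x0))) z) : E2 →L[ℝ] E2)))
    (fun i => mv F (L.rot i.1.2 (L.φ i.1.1 x0))
      (F.lin (L.flip x0) (L.flip (L.rot i.1.2 (L.φ i.1.1 x0))) z)) (trn F hS θ x0 z)
    (fun i _ => trn_same F hS hfl (hem i) (hep i) z) (by positivity) (fun i ht => ?_)
  · intro y ε hε T
    obtain ⟨t, ht, o, g, hgt⟩ := hx0.fwd {w | ‖θ w - θ y‖ < ε}
      (isOpen_lt (by fun_prop) continuous_const) ⟨y, by simpa using hε⟩ (max T T₀)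
    refine ⟨⟨(t, o), (le_max_right _ _).trans ht⟩, (le_max_left _ _).trans ht, ?_⟩
    change ‖θ (g • L.rot o (L.φ t x0)) - θ y‖ < ε at hgt
    rwa [hg] at hgt
  · rw [show -a * i.1.1 = -(a * i.1.1) by ring, Real.exp_neg]
    exact norm_P_symm_le (Real.exp_pos _) (rate_lin_T F hR i.2 i.1.2 x0)
  · have h := norm_P_symm_le (Real.exp_pos _) (rate_lin'_T F hR i.2 i.1.2 x0)
    rwa [Real.exp_neg, inv_inv] at h
  · have h1 := (rate_lin'_T F hR i.2 i.1.2 x0 z).2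
    have h2 : ‖F.lin (L.flip x0) (L.flip (L.rot i.1.2 (L.φ i.1.1 x0))) z‖ < ρ := by
      refine h1.trans_lt (lt_of_le_of_lt ?_ hz)
      have h2 : Real.exp (-a * i.1.1) ≤ 1 := Real.exp_le_one_iff.2 (by nlinarith)
      nlinarith [norm_nonneg z]
    refine (hlip _ _ h2).trans ?_
    calc C * ‖F.lin (L.flip x0) (L.flip (L.rot i.1.2 (L.φ i.1.1 x0))) z‖ ≤
          C * (Real.exp (-a * i.1.1) * ‖z‖) := mul_le_mul_of_nonneg_left h1 hC
      _ = C * ‖z‖ * Real.exp (-a * i.1.1) := by ring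

/-- **the tensor is parallel along the stable leaves** -/
theorem trn_eq_T (hS : SmB L D) {θ : X → V4 E2} (hθ : Continuous θ)
    (hg : ∀ (g : Γ) x, θ (g • x) = θ x) (hfl : Equi F θ)
    (ha : 0 < a) (hab : b < 2 * a) (hT : 0 ≤ T₀) (hR : ∀ t, T₀ ≤ t → ∀ x q,
      Real.exp (a * t) * ‖q‖ ≤ ‖F.P t x q‖ ∧ ‖F.P t x q‖ ≤ Real.exp (b * t) * ‖q‖)
    {ρ C : ℝ} (hC : 0 ≤ C) (hlip : ∀ x z, ‖z‖ < ρ → ‖trn F hS θ x z - θ x‖ ≤ C * ‖z‖)
    (x : X) {z : E2} (hz : ‖z‖ < ρ) : trn F hS θ x z = θ x := by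
  have hc : Continuous fun x => trn F hS θ x z := by
    have h1 : Continuous fun x => ((kap F hS x z : E2 →L[ℝ] E2), (kap' F x z : E2 →L[ℝ] E2)) := by
      refine Continuous.prodMk ?_ ?_
      · exact (kap_cont F hS).comp (continuous_id.prodMk continuous_const)
      · rw [continuous_clm_apply]
        intro α
        exact (kap'_cont F).comp (f := fun x : X => (x, (z, α)))
          (continuous_id.prodMk continuous_const)
    have h2 : Continuous fun x => θ (mv F x z) :=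
      hθ.comp ((mv_cont F).comp (continuous_id.prodMk continuous_const))
    exact (act_contDiff.continuous.comp h1).clm_apply h2
  have hcl : IsClosed {x : X | trn F hS θ x z = θ x} := isClosed_eq hc hθ
  have h3 : {x : X | DenseF L x} ⊆ {x : X | trn F hS θ x z = θ x} := fun x0 hx0 =>
    trn_eq_at_T F hS hθ hg hfl ha hab hT hR hC hlip hx0 hz
  have h4 := hcl.closure_subset_iff.2 h3
  rw [(dense_denseF L).closure_eq] at h4
  exact h4 (mem_univ x)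

/-- **the mixed fourth derivative is parallel along the stable leaves** -/
theorem par_of_type_T (hS : SmB L D) (hD : ∀ x, D (L.em x) (L.ep x) = L.lv x + L.lp x) {a b : ℝ}
    (ha : 0 < a) (hab : b < 2 * a) {T₀ : ℝ} (hT : 0 ≤ T₀) (hR : ∀ t, T₀ ≤ t → ∀ x q,
      Real.exp (a * t) * ‖q‖ ≤ ‖F.P t x q‖ ∧ ‖F.P t x q‖ ≤ Real.exp (b * t) * ‖q‖)
    {ρ C : ℝ} (hC : 0 ≤ C)
    (hlip : ∀ x z, ‖z‖ < ρ → ‖trn F hS (theta F D) x z - theta F D x‖ ≤ C * ‖z‖)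
    (x : X) {z : E2} (hz : ‖z‖ < ρ) : trn F hS (theta F D) x z = theta F D x :=
  trn_eq_T F hS (theta_cont F hS) (theta_smul F hD) (theta_same F hS) ha hab hT hR hC hlip x hz

end Vale.Agent.P207.N4.V.H267
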