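import Vale.Agent.P207.N5.H391.Theta

/-!
# P207, rates for `t ≥ T` (theorem H), row H9: the tensor is parallel along the stable leaves
-/

set_option maxSynthPendingDepth 3

open Set Filter Topology Metric
open scoped ContDiff

noncomputable section

namespace Vale.Agent.P207.N4.V.H267

open Vale.Agent.P207.N3
open Vale.Agent.P207.N4.H883 (AffS St8)
open Vale.Agent.P207.N4.H391
open Vale.Agent.P207.N4.V.H391
open Vale.Agent.P207.N4.H391.Q (V4 MM act act_apply act_comp par_at act_contDiff fam)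
open Vale.Agent.P207.N4.H387 (DenseF dense_denseF)

variable [Dim]

variable {Γ X B : Type} [Group Γ] [MetricSpace X] [ProperSpace X] [MulAction Γ X]
  [IsIsometricSMul Γ X] [TopologicalSpace B] [CompactSpace B] [T2Space B] [MulAction Γ B]
  [ContinuousConstSMul Γ B] {L : Leaf Γ X B}

variable (F : Aff L) {D : B → B → ℝ}

variable {P : X → E2 →L[ℝ] E2 →L[ℝ] E2 →L[ℝ] E2}

theorem PT_all_T {hS : SmB L D} {a b : ℝ} (ha : 0 < a) {T₀ : ℝ} (hR : ∀ t, T₀ ≤ t → ∀ x q,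
      Real.exp (a * t) * ‖q‖ ≤ ‖F.P t x q‖ ∧ ‖F.P t x q‖ ≤ Real.exp (b * t) * ‖q‖)
    (hder : ∀ x u, HasFDerivAt
      (fun z => (kap F hS x z).symm (hlo F x z u)) ((1 / 2 : ℝ) • P x u u) 0) {ρ : ℝ}
    (hρ : 0 < ρ) (hsm : ∀ x z, ‖z‖ < ρ → PT F hS P x (mv F x z)) {x y : X}
    (h : L.ep x = L.ep y) : PT F hS P x y := by
  have hy : L.em y ≠ L.em (L.flip x) := by rw [em_flip, h]; exact L.em_ne_ep y
  set q := F.ch (L.flip x) (L.em y) with hq
  obtain ⟨T, hT0, hT⟩ : ∃ T : ℝ, T₀ ≤ T ∧ Real.exp (-(a * T)) * ‖q‖ < ρ := by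
    have h1 : Tendsto (fun T : ℝ => Real.exp (-(a * T)) * ‖q‖) atTop (𝓝 (0 * ‖q‖)) := by
      refine Tendsto.mul_const _ (Real.tendsto_exp_neg_atTop_nhds_zero.comp ?_)
      exact tendsto_id.const_mul_atTop ha
    rw [zero_mul] at h1
    obtain ⟨T, hT⟩ := ((h1.eventually (gt_mem_nhds hρ)).and (eventually_ge_atTop T₀)).exists
    exact ⟨T, hT.2, hT.1⟩
  set xT := L.φ T x with hxT
  have hem : L.em xT = L.em x := L.em_φ _ _
  have hep : L.ep xT = L.ep x := ep_φ _ _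
  set zT := F.ch (L.flip xT) (L.em y) with hzT
  have hyT : L.em y ≠ L.em (L.flip xT) := by rw [em_flip, hep, h]; exact L.em_ne_ep y
  have h2 : zT = F.P (-T) (L.flip x) q := by
    rw [hzT, hxT, L.flip_φ, ch_φ F (-T) (L.flip x) hy]
  have h3 : ‖zT‖ < ρ := by
    have e1 := P_neg F T (L.φ (-T) (L.flip x)) q
    rw [← L.φ_add, add_neg_cancel, L.φ_zero] at e1
    have e2 := (hR T hT0 (L.φ (-T) (L.flip x)) ((F.P T (L.φ (-T) (L.flip x))).symm q)).1
    rw [ContinuousLinearEquiv.apply_symm_apply, ← e1, ← h2] at e2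
    have e3 : ‖zT‖ ≤ Real.exp (-(a * T)) * ‖q‖ := by
      rw [Real.exp_neg, inv_mul_eq_div, le_div_iff₀ (Real.exp_pos _), mul_comm]
      exact e2
    exact e3.trans_lt hT
  have h4 : L.em (mv F xT zT) = L.em y := by rw [em_mv, hzT, F.pt_ch _ _ hyT]
  have h5 : L.ep (mv F xT zT) = L.ep xT := ep_mv F _ _
  have p1 : PT F hS P x xT := PT_same F hder hem.symm hep.symm
  have p2 : PT F hS P xT (mv F xT zT) := hsm xT zT h3
  have p3 : PT F hS P (mv F xT zT) y := PT_same F hder h4 (h5.trans (hep.trans h))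
  exact PT.trans F hep.symm (hep.trans h) p1 (PT.trans F h5.symm (h5.trans (hep.trans h)) p2 p3)

end Vale.Agent.P207.N4.V.H267
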