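import Vale.Agent.P207.N5.H267.Fin8
import Vale.Agent.P207.N5.H267.T.PCQ
import Vale.Agent.P207.N5.H267.T.Par
import Vale.Agent.P207.N5.H267.T.LeafT

/-!
# P207, rates for `t ≥ T` (theorem H), row H9: the input of step 8
-/

set_option maxSynthPendingDepth 3

open Set Filter Topology Metric
open scoped ContDiff

noncomputable section

namespace Vale.Agent.P207.N4.V.H267

open Vale.Agent.P207.N3
open Vale.Agent.P207.N4.H883 (AffS St8)
open Vale.Agent.P207.N4.H391
open Vale.Agent.P207.N4.V.H391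
open Vale.Agent.P207.N4.H391.Q (V4 MM act act_apply act_comp par_at act_contDiff fam)
open Vale.Agent.P207.N4.H387 (DenseF dense_denseF)

variable [Dim]

variable {Γ X B : Type} [Group Γ] [MetricSpace X] [ProperSpace X] [MulAction Γ X]
  [IsIsometricSMul Γ X] [TopologicalSpace B] [CompactSpace B] [T2Space B] [MulAction Γ B]
  [ContinuousConstSMul Γ B] {L : Leaf Γ X B}

/-- **The input of step 8, `b < 2a`**, from the type lemma `hty`. -/
theorem exists_st8Q_T (F : Aff L) {D : B → B → ℝ} (hS : SmB L D)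
    (hD : ∀ x, D (L.em x) (L.ep x) = L.lv x + L.lp x) {a b : ℝ} (ha : 0 < a) (hab : a ≤ b)
    (hp : b < 2 * a) {T₀ : ℝ} (hT : 0 < T₀) (hR : ∀ t, T₀ ≤ t → ∀ x q,
      Real.exp (a * t) * ‖q‖ ≤ ‖F.P t x q‖ ∧ ‖F.P t x q‖ ≤ Real.exp (b * t) * ‖q‖)
    (hty : ∀ ρ C : ℝ, 0 < ρ → 0 ≤ C → C22Lip F hS ρ C → C22Par F hS ρ) :
    ∃ S : St8 L, S.toAffS = affS F hS := by
  obtain ⟨S, -, -, -, hβ, hmv, hκ, hκ', hg, -⟩ := exists_flipD_T F hS hD ha hab hp hT hR
  have hx : Nonempty X := L.nonempty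
  have hM : 0 ≤ S.M 2 :=
    (norm_nonneg (S.K hx.some : E2 →L[ℝ] E2 →L[ℝ] ℝ)).trans (S.K_norm hx.some)
  have hC : 0 ≤ S.M 2 * S.A 3 := mul_nonneg hM (S.A_nonneg hx.some 3)
  have hlip : C22Lip F hS S.ρ (S.M 2 * S.A 3) := by
    intro x z hz α α' u u'
    have h := S.c22_lip (v := x) hz α α' u u'
    unfold Vale.Agent.P207.H267.Q.BetaD.c22 at h
    rw [hβ, hmv, hκ', hκ] at h
    exact h
  have hpar22 := hty S.ρ (S.M 2 * S.A 3) S.ρ_pos hC hlip
  have hPar : S.Par := by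
    refine S.par_of_c22 fun x z hz α α' u u' => ?_
    have h := hpar22 x z hz α α' u u'
    unfold Vale.Agent.P207.H267.Q.BetaD.c22
    rw [hβ, hmv, hκ', hκ]
    exact h
  obtain ⟨P, -, hsym, hder, hpar, -⟩ := S.exists_P hPar
  rw [hκ, hg] at hder
  rw [hκ, hκ', hmv] at hpar
  have hsym' : ∀ x u v, P x u v = P x v u := fun x u v => by
    ext1 α
    exact hsym x u v α
  have hsm : ∀ x z, ‖z‖ < S.ρ → PT F hS P x (mv F x z) := fun x z hz h u α =>
    hpar x z hz u u α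
  refine ⟨{
    toAffS := affS F hS
    P := P
    P_symm := hsym'
    P_cont := P_cont_T F hS hD ha hab hp hT hR hsym' hder
    P_smul := P_smul F hS hsym' hder
    der := ?_
    par := ?_ }, rfl⟩
  · intro x η hη
    have h1 := hder x (F.ch x η)
    have h2 : (fun z => (kap F hS x z).symm (hlo F x z (F.ch x η))) = fun z : E2 =>
        ((affS F hS).kp x (L.hol (F.pt (L.flip x) z) x)).inverse
          (F.ch (L.hol (F.pt (L.flip x) z) x) η) := by
      funext z
      have e1 : (affS F hS).kp x (L.hol (F.pt (L.flip x) z) x) = kap F hS x z := kp_mv F hS x z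
      rw [e1, ContinuousLinearMap.inverse_equiv, hlo, F.pt_ch x η hη]
      rfl
    rw [h2] at h1
    exact h1
  · intro x y h u α
    have h1 := PT_all_T F ha hR hder S.ρ_pos hsm h h u α
    have h2 : fderiv ℝ (fun z => F.ch (L.flip y) (F.pt (L.flip x) z)) 0 =
        (F.lin (L.flip x) (L.flip y) : E2 →L[ℝ] E2) := by
      have hf : L.em (L.flip x) = L.em (L.flip y) := by rw [em_flip, em_flip, h]
      have e1 : (fun z => F.ch (L.flip y) (F.pt (L.flip x) z)) = fun z =>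
          F.lin (L.flip x) (L.flip y) (z - F.ch (L.flip x) (L.ep (L.flip y))) := by
        funext z
        rw [ch_leaf F hf (F.pt_ne _ _), F.ch_pt]
      rw [e1]
      exact ((F.lin (L.flip x) (L.flip y) : E2 →L[ℝ] E2).hasFDerivAt.comp (0 : E2)
        ((hasFDerivAt_id (0 : E2)).sub_const _)).fderiv
    change P y ((affS F hS).kp x y u) ((affS F hS).kp x y u)
      (fderiv ℝ (fun z => F.ch (L.flip y) (F.pt (L.flip x) z)) 0 α) =
        (affS F hS).kp x y (P x u u α)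
    rw [h2, kp_kpe F hS h]
    exact h1

/-- **The input of step 8, `b < 2a`.** -/
theorem exists_st8_T (F : Aff L) {D : B → B → ℝ} (hS : SmB L D)
    (hD : ∀ x, D (L.em x) (L.ep x) = L.lv x + L.lp x) {a b : ℝ} (ha : 0 < a) (hab : a ≤ b)
    (hb : b < 2 * a) {T₀ : ℝ} (hT : 0 < T₀) (hR : ∀ t, T₀ ≤ t → ∀ x q,
      Real.exp (a * t) * ‖q‖ ≤ ‖F.P t x q‖ ∧ ‖F.P t x q‖ ≤ Real.exp (b * t) * ‖q‖) :
    ∃ S : St8 L, S.toAffS = affS F hS := by
  refine exists_st8Q_T F hS hD ha hab hb hT hR fun ρ C hρ hC hl => ?_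
  have hlip : ∀ x z, ‖z‖ < ρ → ‖trn F hS (theta F D) x z - theta F D x‖ ≤ C * ‖z‖ := by
    intro x z hz
    refine ContinuousMultilinearMap.opNorm_le_bound (by positivity) fun v => ?_
    rw [sub_apply, trn_theta, theta_apply, Fin.prod_univ_four, Real.norm_eq_abs]
    have h := hl x z hz (v 0) (v 1) (v 2) (v 3)
    calc _ ≤ C * ‖z‖ * ‖v 0‖ * ‖v 1‖ * ‖v 2‖ * ‖v 3‖ := h
      _ = C * ‖z‖ * (‖v 0‖ * ‖v 1‖ * ‖v 2‖ * ‖v 3‖) := by ring
  intro x z hz α α' u u'
  have h := DFunLike.congr_fun (par_of_type_T F hS hD ha hb hT.le hR hC hlip x hz) ![α, α', u, u']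
  rw [trn_theta, theta_apply] at h
  exact h

end Vale.Agent.P207.N4.V.H267
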