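import Vale.Agent.P207.N5.H267.Inst

/-!
# P207, rates for `t ≥ T` (theorem H), row H9: the time step `T`
-/

open Set Filter Topology Metric
open scoped ContDiff

noncomputable section

namespace Vale.Agent.P207.N4.V.H267

open Vale.Agent.P207.N3
open Vale.Agent.P207.N4.H391
open Vale.Agent.P207.N4.V.H391
open Vale.Agent.P207.N4.Ten (ep_cont ball_sub mem_ball0 mem_cball0 tau_eq mem_dm
  tau_mem e_tau tau_symm_mem tau_tau_symm dm_zero_of_ep tau_zero_of_ep isOpen_dm2 isOpen_dm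
  dm_smul fderiv_tau_smul)

variable [Dim]

variable {Γ X B : Type} [Group Γ] [MetricSpace X] [ProperSpace X] [MulAction Γ X]
  [IsIsometricSMul Γ X] [TopologicalSpace B] [CompactSpace B] [T2Space B] [MulAction Γ B]
  [ContinuousConstSMul Γ B] {L : Leaf Γ X B}

variable {T : ℝ}

/-- the one step data -/
def ψT (L : Leaf Γ X B) (T : ℝ) (x : X) : X := L.φ (-T) x

theorem φ_ψ_T (x : X) : L.φ T (ψT L T x) = x := by
  rw [ψT, ← L.φ_add, add_neg_cancel, L.φ_zero]

theorem ψ_surj_T : Function.Surjective (ψT L T) := fun x => ⟨L.φ T x, by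
  rw [ψT, ← L.φ_add, neg_add_cancel, L.φ_zero]⟩

def L1T (F : Aff L) (T : ℝ) (x : X) : E2 ≃L[ℝ] E2 := F.P T (ψT L T x)

def L1T' (F : Aff L) (T : ℝ) (x : X) : E2 ≃L[ℝ] E2 := (F.P T (L.flip x)).symm

variable (F : Aff L) {D : B → B → ℝ}

theorem flip_ψ_T (x : X) : L.flip (ψT L T x) = L.φ T (L.flip x) := by
  rw [ψT, L.flip_φ, neg_neg]

theorem em_ψ_T (x : X) : L.em (ψT L T x) = L.em x := L.em_φ _ _

theorem ep_ψ_T (x : X) : L.ep (ψT L T x) = L.ep x := ep_φ _ _

theorem P_ψ_T (x : X) (q : E2) : F.P (-T) x q = (L1T F T x).symm q := by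
  have h := P_neg F T (ψT L T x) q
  rw [φ_ψ_T] at h
  exact h

/-- the chart after one step -/
theorem ch_L1_T (x : X) {η : B} (h : η ≠ L.em x) : F.ch x η = L1T F T x (F.ch (ψT L T x) η) := by
  have h1 := ch_φ F T (ψT L T x) (η := η) (by rwa [em_ψ_T])
  rwa [φ_ψ_T] at h1

theorem pt_L1_T (x : X) (q : E2) : F.pt x (L1T F T x q) = F.pt (ψT L T x) q := by
  have h1 := F.flow T (ψT L T x) q
  rwa [φ_ψ_T] at h1

theorem pt_L1_symm_T (x : X) (q : E2) : F.pt (ψT L T x) ((L1T F T x).symm q) = F.pt x q := by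
  rw [← pt_L1_T, ContinuousLinearEquiv.apply_symm_apply]

theorem pt_L1_T' (x : X) (q : E2) : F.pt (L.flip x) (L1T' F T x q) = F.pt (L.flip (ψT L T x)) q := by
  have h1 := F.flow T (L.flip x) (L1T' F T x q)
  rw [L1T', ContinuousLinearEquiv.apply_symm_apply] at h1
  rw [flip_ψ_T]
  exact h1.symm

/-- the chart after one step, stable side -/
theorem ch_L1_T' (x : X) {η : B} (h : η ≠ L.ep x) :
    F.ch (L.flip x) η = L1T' F T x (F.ch (L.flip (ψT L T x)) η) := by
  have h1 := ch_φ F T (L.flip x) (η := η) (by rwa [em_flip])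
  rw [flip_ψ_T, h1, L1T', ContinuousLinearEquiv.symm_apply_apply]

theorem equi1_T (x : X) (z u : E2) :
    bta F D x (z, u) = bta F D (ψT L T x) ((L1T' F T x).symm z, (L1T F T x).symm u) := by
  have h := bta_flow F D (-T) x z u
  rw [neg_neg, P_ψ_T] at h
  exact h.symm

theorem mv_ψ_T (x : X) (z : E2) : ψT L T (mv F x (L1T' F T x z)) = mv F (ψT L T x) z := by
  have h := mv_φ F (-T) x (L1T' F T x z)
  rw [neg_neg, L1T', ContinuousLinearEquiv.apply_symm_apply] at h
  exact h.symm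

theorem mv_ψ_T' (x : X) (z : E2) : ψT L T (mv F x z) = mv F (ψT L T x) ((L1T' F T x).symm z) := by
  have h := mv_ψ_T (T := T) F x ((L1T' F T x).symm z)
  rwa [ContinuousLinearEquiv.apply_symm_apply] at h


theorem flow_kap'_T (x : X) (z α : E2) :
    L1T' F T (mv F x (L1T' F T x z)) (kap' F (ψT L T x) z α) = kap' F x (L1T' F T x z) (L1T' F T x α) := by
  set w := mv F x (L1T' F T x z) with hw
  have h1 : mv F (ψT L T x) z = ψT L T w := (mv_ψ_T F x z).symm
  rw [kap'_eq, kap'_eq, ← map_add, pt_L1_T', h1, ← hw]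
  refine (ch_L1_T' F w ?_).symm
  rw [hw, ep_mv, ← ep_ψ_T x]
  exact pt_flip_ne F (ψT L T x) (z + α)

/-- the holonomy commutes with the flow -/
theorem hlo_flow_T {x : X} {z u : E2} (h : F.pt x (L1T F T x u) ≠ F.pt (L.flip x) (L1T' F T x z)) :
    hlo F x (L1T' F T x z) (L1T F T x u) = L1T F T (mv F x (L1T' F T x z)) (hlo F (ψT L T x) z u) := by
  rw [hlo, hlo, ch_L1_T F _ (by rwa [em_mv]), mv_ψ_T, pt_L1_T]

theorem flow_kap_T (hS : SmB L D) (x : X) (z u : E2) :
    L1T F T (mv F x (L1T' F T x z)) (kap F hS (ψT L T x) z u) = kap F hS x (L1T' F T x z) (L1T F T x u) := by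
  have e1 := ((L1T F T (mv F x (L1T' F T x z)) : E2 →L[ℝ] E2).hasFDerivAt).comp (0 : E2)
    (g_deriv F hS (ψT L T x) z)
  have e2 : HasFDerivAt (hlo F x (L1T' F T x z)) (kap F hS x (L1T' F T x z) : E2 →L[ℝ] E2)
      ((L1T F T x : E2 →L[ℝ] E2) 0) := by
    rw [map_zero]
    exact g_deriv F hS x (L1T' F T x z)
  have e3 := e2.comp (0 : E2) (L1T F T x : E2 →L[ℝ] E2).hasFDerivAt
  have e4 : ∀ᶠ u in 𝓝 (0 : E2), F.pt x (L1T F T x u) ≠ F.pt (L.flip x) (L1T' F T x z) := by
    have hc : Continuous fun u : E2 => F.pt x (L1T F T x u) :=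
      F.pt_cont.comp (continuous_const.prodMk (L1T F T x).continuous)
    refine (isOpen_ne_fun hc continuous_const).mem_nhds ?_
    change F.pt x (L1T F T x 0) ≠ F.pt (L.flip x) (L1T' F T x z)
    rw [map_zero, F.pt_zero]
    exact (pt_flip_ne F x _).symm
  have e5 : (fun u => hlo F x (L1T' F T x z) (L1T F T x u)) =ᶠ[𝓝 0]
      fun u => L1T F T (mv F x (L1T' F T x z)) (hlo F (ψT L T x) z u) := by
    filter_upwards [e4] with u hu
    exact hlo_flow_T F hu
  have e6 := e1.unique (e3.congr_of_eventuallyEq e5.symm)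
  exact DFunLike.congr_fun e6 u

theorem flow_hlo_T (hS : SmB L D) (x : X) (u : E2) : ∀ᶠ z in 𝓝 (0 : E2),
    (kap F hS x z).symm (hlo F x z u) =
      L1T F T x ((kap F hS (ψT L T x) ((L1T' F T x).symm z)).symm
        (hlo F (ψT L T x) ((L1T' F T x).symm z) ((L1T F T x).symm u))) := by
  have e4 : ∀ᶠ z in 𝓝 (0 : E2), F.pt x u ≠ F.pt (L.flip x) z := by
    have hc : Continuous fun z : E2 => F.pt (L.flip x) z :=
      F.pt_cont.comp (continuous_const.prodMk continuous_id)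
    refine (isOpen_ne_fun continuous_const hc).mem_nhds ?_
    change F.pt x u ≠ F.pt (L.flip x) 0
    rw [pt_flip_zero]
    exact F.pt_ne x u
  filter_upwards [e4] with z hz
  have h1 := hlo_flow_T F (x := x) (z := (L1T' F T x).symm z) (u := (L1T F T x).symm u) (by
    rw [ContinuousLinearEquiv.apply_symm_apply, ContinuousLinearEquiv.apply_symm_apply]
    exact hz)
  rw [ContinuousLinearEquiv.apply_symm_apply, ContinuousLinearEquiv.apply_symm_apply] at h1
  rw [ContinuousLinearEquiv.symm_apply_eq, h1]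
  have h2 := flow_kap_T (T := T) F hS x ((L1T' F T x).symm z) ((kap F hS (ψT L T x) ((L1T' F T x).symm z)).symm
    (hlo F (ψT L T x) ((L1T' F T x).symm z) ((L1T F T x).symm u)))
  rw [ContinuousLinearEquiv.apply_symm_apply, ContinuousLinearEquiv.apply_symm_apply] at h2
  exact h2


end Vale.Agent.P207.N4.V.H267
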